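import Vale.Agent.P343.H741.Iface
import Mathlib.Data.Set.Card.Arithmetic

/-!
Row S: one level of the recursion.
-/

namespace Vale.Agent.P343.H650

open Vale.Agent.P343 Vale.Agent.P343.Box Vale.Agent.P343.H741

/-! ### Words in a monoid -/

section Words

variable {M α : Type} [Monoid M]

/-- The value of a word. -/
def wd (g : α → M) (w : List α) : M := (w.map g).prod

theorem wd_nil (g : α → M) : wd g [] = 1 := rfl

theorem wd_append (g : α → M) (u w : List α) : wd g (u ++ w) = wd g u * wd g w := by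
  unfold wd
  rw [List.map_append, List.prod_append]

theorem wd_singleton (g : α → M) (a : α) : wd g [a] = g a := by
  simp [wd]

theorem wd_rep (g : α → M) (w : List α) (k : ℕ) : wd g (rep w k) = wd g w ^ k := by
  induction k with
  | zero => simp [rep, wd_nil]
  | succ k ih => rw [rep, wd_append, ih, pow_succ']

theorem wd_flatMap {β : Type} (g : α → M) (m : β → List α) (ws : List β) :
    wd g (ws.flatMap m) = (ws.map (fun a => wd g (m a))).prod := by
  induction ws with
  | nil => rfl
  | cons a ws ih => rw [List.flatMap_cons, wd_append, ih, List.map_cons, List.prod_cons]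

variable [Finite M]

/-- An exponent that makes an element idempotent. -/
noncomputable def ex (x : M) : ℕ := Classical.choose (exists_pow_idem x)

theorem ex_pos (x : M) : 0 < ex x := (Classical.choose_spec (exists_pow_idem x)).1

theorem ex_idem (x : M) : x ^ ex x * x ^ ex x = x ^ ex x :=
  (Classical.choose_spec (exists_pow_idem x)).2

end Words

/-! ### The chain -/

section Chain

variable {V M : Type} {n : ℕ} [Monoid M] [Finite M]

/-- The chain of words that starts with the identity letter. -/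
noncomputable def chn (g : Sym (Ext V n) → M) : ℕ → List (Sym (Ext V n))
  | 0 => [idSym (Ext V n)]
  | c + 1 => rep (chn g c ++ [edgeN V n c] ++ chn g c)
      (ex (wd g (chn g c ++ [edgeN V n c] ++ chn g c)))

theorem chn_zero (g : Sym (Ext V n) → M) : chn g 0 = [idSym (Ext V n)] := rfl

theorem chn_succ (g : Sym (Ext V n) → M) (c : ℕ) :
    chn g (c + 1) = rep (chn g c ++ [edgeN V n c] ++ chn g c)
      (ex (wd g (chn g c ++ [edgeN V n c] ++ chn g c))) := rfl

theorem acts_chn (g : Sym (Ext V n) → M) (hn : 0 < n) (c : ℕ)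
    (S : Set (Ext V n)) :
    acts (chn g c) S = addE (fun i j => i.val * n + j.val < c) S := by
  induction c generalizing S with
  | zero =>
    rw [chn_zero, acts_cons, acts_nil]
    ext y
    rw [mem_act]
    simp [addE, idSym]
  | succ c ih =>
    rw [chn_succ]
    apply acts_rep _ _ (ex_pos _)
    intro S
    rw [acts_append, acts_append, ih, ih, acts_cons, acts_nil, act_edgeN, addE_addE, addE_addE]
    apply addE_congr
    intro i j
    have h1 : (i.val = c / n ∧ j.val = c % n) ↔ i.val * n + j.val = c := by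
      constructor
      · rintro ⟨h1, h2⟩
        rw [h1, h2]
        have := Nat.div_add_mod c n
        rw [Nat.mul_comm] at this
        exact this
      · intro h
        have hj := j.2
        constructor
        · rw [← h, Nat.add_comm, Nat.add_mul_div_right _ _ hn, Nat.div_eq_of_lt hj, Nat.zero_add]
        · rw [← h, Nat.add_comm, Nat.add_mul_mod_self_right, Nat.mod_eq_of_lt hj]
    rw [h1]
    omega

variable {g : Sym (Ext V n) → M}
  (hid : g (idSym (Ext V n)) * g (idSym (Ext V n)) = g (idSym (Ext V n)))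

include hid

theorem chn_idem (c : ℕ) : wd g (chn g c) * wd g (chn g c) = wd g (chn g c) := by
  cases c with
  | zero =>
    rw [chn_zero, wd_singleton]
    exact hid
  | succ c =>
    rw [chn_succ, wd_rep]
    exact ex_idem _

theorem chn_left (c : ℕ) : wd g (chn g c) * wd g (chn g (c + 1)) = wd g (chn g (c + 1)) := by
  rw [chn_succ, wd_rep]
  have hk := ex_pos (wd g (chn g c ++ [edgeN V n c] ++ chn g c))
  obtain ⟨k, hk'⟩ := Nat.exists_eq_succ_of_ne_zero (Nat.pos_iff_ne_zero.1 hk)
  rw [hk', pow_succ', wd_append, wd_append]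
  simp only [← mul_assoc]
  rw [chn_idem hid]

theorem chn_right (c : ℕ) : wd g (chn g (c + 1)) * wd g (chn g c) = wd g (chn g (c + 1)) := by
  rw [chn_succ, wd_rep]
  have hk := ex_pos (wd g (chn g c ++ [edgeN V n c] ++ chn g c))
  obtain ⟨k, hk'⟩ := Nat.exists_eq_succ_of_ne_zero (Nat.pos_iff_ne_zero.1 hk)
  rw [hk', pow_succ, wd_append, wd_append]
  simp only [mul_assoc]
  rw [chn_idem hid]

theorem chn_left0 (c : ℕ) : g (idSym (Ext V n)) * wd g (chn g c) = wd g (chn g c) := by
  induction c with
  | zero =>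
    rw [chn_zero, wd_singleton]
    exact hid
  | succ c ih => rw [← chn_left hid c, ← mul_assoc, ih]

theorem chn_right0 (c : ℕ) : wd g (chn g c) * g (idSym (Ext V n)) = wd g (chn g c) := by
  induction c with
  | zero =>
    rw [chn_zero, wd_singleton]
    exact hid
  | succ c ih => rw [← chn_right hid c, mul_assoc, ih]

end Chain

/-! ### Recurrent states that are never touched by the edges -/

section Keep

variable {Q V : Type} {n : ℕ} [Finite Q] (hP : PtsFacts Q) {g : Sym (Ext V n) → NB Q}
  (hid : g (idSym (Ext V n)) * g (idSym (Ext V n)) = g (idSym (Ext V n)))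
  (hl : ∀ s, g (idSym (Ext V n)) * g s = g s) (hr : ∀ s, g s * g (idSym (Ext V n)) = g s)

include hP hid

theorem X_pow {s : NB Q} {d : Bool} {x : Q} (h1 : g (idSym (Ext V n)) * s = s)
    (h2 : s * g (idSym (Ext V n)) = s) (h : X (g (idSym (Ext V n))) s d x x) (k : ℕ) :
    X (g (idSym (Ext V n))) (s ^ (k + 1)) d x x := by
  induction k with
  | zero => rw [pow_one]; exact h
  | succ k ih =>
    rw [pow_succ]
    refine hP.comp hid ?_ ?_ h1 h2 ih h
    · rw [pow_succ', ← mul_assoc, h1]
    · rw [pow_succ, mul_assoc, h2]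

include hl hr

theorem X_chn {d : Bool} {x : Q} (hx : Pt (g (idSym (Ext V n))) d x)
    (N : ℕ) (h : ∀ c, c < N → X (g (idSym (Ext V n))) (g (edgeN V n c)) d x x) (c : ℕ)
    (hc : c ≤ N) : X (g (idSym (Ext V n))) (wd g (chn g c)) d x x := by
  induction c with
  | zero =>
    rw [chn_zero, wd_singleton]
    exact hx
  | succ c ih =>
    have ih' := ih (by omega)
    rw [chn_succ, wd_rep]
    have hk := ex_pos (wd g (chn g c ++ [edgeN V n c] ++ chn g c))
    obtain ⟨k, hk'⟩ := Nat.exists_eq_succ_of_ne_zero (Nat.pos_iff_ne_zero.1 hk)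
    rw [hk']
    have hL := chn_left0 (g := g) hid c
    have hR := chn_right0 (g := g) hid c
    have hE := h c (by omega)
    have e1 := hl (edgeN V n c)
    have e2 := hr (edgeN V n c)
    apply X_pow hP hid
    · rw [wd_append, wd_append, wd_singleton, ← mul_assoc, ← mul_assoc, hL]
    · rw [wd_append, wd_append, wd_singleton, mul_assoc, hR]
    · rw [wd_append, wd_append, wd_singleton]
      refine hP.comp hid ?_ ?_ hL hR (hP.comp hid hL hR e1 e2 ih' hE) ih'
      · rw [← mul_assoc, hL]
      · rw [mul_assoc, e2]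

end Keep

/-! ### Lost classes -/

section Lost

variable {Q V : Type} {n : ℕ} [Finite Q]

/-- The classes touched by the edges. -/
def Ut (Act : Bool × Ext V n → Set (Bool × Set Q)) : Set (Bool × Set Q) :=
  ⋃ i : Fin n, (Act (false, trkW V i) ∪ Act (true, trkP V i))

theorem Ut_card (Act : Bool × Ext V n → Set (Bool × Set Q)) {a : ℕ}
    (hAct : ∀ t, (Act t).ncard ≤ a) : (Ut Act).ncard ≤ n * (2 * a) := by
  unfold Ut
  refine (Set.ncard_iUnion_le_of_fintype _).trans ?_
  calc ∑ i : Fin n, (Act (false, trkW V i) ∪ Act (true, trkP V i)).ncard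
      ≤ ∑ _i : Fin n, 2 * a := by
        apply Finset.sum_le_sum
        intro i _
        refine (Set.ncard_union_le _ _).trans ?_
        have h1 := hAct (false, trkW V i)
        have h2 := hAct (true, trkP V i)
        omega
    _ = n * (2 * a) := by simp

variable (hP : PtsFacts Q) {g : Sym (Ext V n) → NB Q}
  (hid : g (idSym (Ext V n)) * g (idSym (Ext V n)) = g (idSym (Ext V n)))
  (hl : ∀ s, g (idSym (Ext V n)) * g s = g s) (hr : ∀ s, g s * g (idSym (Ext V n)) = g s)
  {Act : Bool × Ext V n → Set (Bool × Set Q)}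
  (hpass : ∀ s : Sym (Ext V n), (∀ v, s.keep v = true) → ∀ d x,
    Pt (g (idSym (Ext V n))) d x →
    (∀ v, s.src v = true → (d, cl (g (idSym (Ext V n))) d x) ∉ Act (false, v)) →
    (∀ v, s.dst v = true → (d, cl (g (idSym (Ext V n))) d x) ∉ Act (true, v)) →
    X (g (idSym (Ext V n))) (g s) d x x)

include hP hid hl hr hpass

theorem X_edge {d : Bool} {x : Q} (hx : Pt (g (idSym (Ext V n))) d x)
    (h : (d, cl (g (idSym (Ext V n))) d x) ∉ Ut Act) (c : ℕ) :
    X (g (idSym (Ext V n))) (g (edgeN V n c)) d x x := by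
  refine hpass _ (fun _ => rfl) d x hx ?_ ?_
  · intro v hv hmem
    obtain ⟨i, rfl, _⟩ := isW_iff.1 hv
    exact h (Set.mem_iUnion.2 ⟨i, Or.inl hmem⟩)
  · intro v hv hmem
    obtain ⟨i, rfl, _⟩ := isP_iff.1 hv
    exact h (Set.mem_iUnion.2 ⟨i, Or.inr hmem⟩)

theorem lost_sub (c : ℕ) : Lost (wd g (chn g c)) (wd g (chn g (c + 1))) ⊆
    UC (g (idSym (Ext V n))) (Ut Act) (wd g (chn g c)) := by
  rintro κ ⟨y, hy, hκ, hX⟩
  refine ⟨⟨y, hy, hκ⟩, ?_⟩
  intro x hx hx0
  by_contra hU
  apply hX
  rw [hκ] at hx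
  obtain ⟨hyx, hxy⟩ := hx
  have h1 := X_chn hP hid hl hr hx0 (c + 1)
    (fun c' _ => X_edge hP hid hl hr hpass hx0 hU c') (c + 1) (le_refl _)
  have h2 : X (wd g (chn g c)) (wd g (chn g (c + 1))) κ.1 x x :=
    hP.env (chn_left0 hid c) (chn_right0 hid c) h1
  have he := chn_idem (g := g) hid c
  have h3 := hP.invL he (chn_left hid c) (chn_right hid c) hyx h2
  exact hP.invR he (chn_left hid c) (chn_right hid c) h3 hxy

omit hl hr hpass in
theorem UC_zero (U : Set (Bool × Set Q)) :
    UC (g (idSym (Ext V n))) U (wd g (chn g 0)) ⊆ U := by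
  rintro ⟨d, s⟩ ⟨⟨y, hy, hs⟩, h⟩
  simp only at hy hs
  rw [chn_zero, wd_singleton] at hy hs
  subst hs
  exact h y ⟨hy, hy⟩ hy

/-- Selection of a cheap edge. -/
theorem choose_edge (hC : CountStmt) (hn : 0 < n) {a : ℕ} (hAct : ∀ t, (Act t).ncard ≤ a) :
    ∃ c < n * n, n * (Lost (wd g (chn g c)) (wd g (chn g (c + 1)))).ncard ≤ 4 * a := by
  have hcount := fun c => hC Q (g (idSym (Ext V n))) (wd g (chn g c)) (wd g (chn g (c + 1)))
    (Ut Act) (chn_idem hid c) (chn_idem hid (c + 1)) (chn_left hid c) (chn_right hid c)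
    (lost_sub hP hid hl hr hpass c)
  obtain ⟨c, hc, hdrop⟩ := row_select (m := n * n) (Nat.mul_pos hn hn)
    (fun c => 2 * (UC (g (idSym (Ext V n))) (Ut Act) (wd g (chn g c))).ncard)
    (fun c => by have := hcount c; omega)
  refine ⟨c, hc, ?_⟩
  have h1 := hcount c
  have h2 : (Lost (wd g (chn g c)) (wd g (chn g (c + 1)))).ncard ≤
      2 * (UC (g (idSym (Ext V n))) (Ut Act) (wd g (chn g c))).ncard -
        2 * (UC (g (idSym (Ext V n))) (Ut Act) (wd g (chn g (c + 1)))).ncard := by omega
  have h3 : (UC (g (idSym (Ext V n))) (Ut Act) (wd g (chn g 0))).ncard ≤ n * (2 * a) :=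
    (Set.ncard_le_ncard (UC_zero hP hid _) (Set.toFinite _)).trans (Ut_card Act hAct)
  have h4 : n * (n * (Lost (wd g (chn g c)) (wd g (chn g (c + 1)))).ncard) ≤ n * (4 * a) := by
    calc n * (n * (Lost (wd g (chn g c)) (wd g (chn g (c + 1)))).ncard)
        = n * n * (Lost (wd g (chn g c)) (wd g (chn g (c + 1)))).ncard := by ring
      _ ≤ n * n * (2 * (UC (g (idSym (Ext V n))) (Ut Act) (wd g (chn g c))).ncard -
          2 * (UC (g (idSym (Ext V n))) (Ut Act) (wd g (chn g (c + 1)))).ncard) :=
        Nat.mul_le_mul_left _ h2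
      _ ≤ 2 * (UC (g (idSym (Ext V n))) (Ut Act) (wd g (chn g 0))).ncard := hdrop
      _ ≤ 2 * (n * (2 * a)) := Nat.mul_le_mul_left _ h3
      _ = n * (4 * a) := by ring
  exact Nat.le_of_mul_le_mul_left h4 hn

end Lost

/-! ### Pieces -/

section Pieces

variable {Q T' α : Type}

theorem pv_append (e f : NB Q) (x : T' → Bool) (L L' : List (NB Q ⊕ T')) :
    pv e f x (L ++ L') = pv e f x L * pv e f x L' := by
  unfold pv
  rw [List.map_append, List.prod_append]

theorem pv_inl (e f : NB Q) (x : T' → Bool) (m : NB Q) :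
    pv e f x [Sum.inl m] = m := by
  simp [pv]

/-- The pieces of a list of letters and toggles. -/
def pcs (g : α → NB Q) (c : List (α ⊕ T')) : List (NB Q ⊕ T') := c.map (Sum.map g id)

theorem pv_pcs (g : α → NB Q) (L0 L1 : List α) (x : T' → Bool) (c : List (α ⊕ T')) :
    pv (wd g L0) (wd g L1) x (pcs g c) = wd g (expand L0 L1 x c) := by
  induction c with
  | nil => rfl
  | cons p c ih =>
    have h3 : expand L0 L1 x (p :: c) =
        (Sum.elim (fun s => [s]) (fun t => if x t then L1 else L0) p) ++ expand L0 L1 x c := by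
      unfold expand
      rw [List.flatMap_cons]
    have h4 : pcs g (p :: c) = [Sum.map g id p] ++ pcs g c := rfl
    rw [h4, pv_append, ih, h3, wd_append]
    congr 1
    rcases p with s | t
    · show pv _ _ _ [Sum.inl (g s)] = wd g [s]
      rw [pv_inl, wd_singleton]
    · by_cases hx : x t = true
      · simp [pv, hx]
      · simp [pv, hx]

theorem countP_pcs (g : α → NB Q) (c : List (α ⊕ T')) (t : T') :
    (pcs g c).countP (isT t) = c.countP (isT t) := by
  unfold pcs
  rw [List.countP_map]
  congr 1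
  funext p
  rcases p with s | t'
  · simp [isT]
  · simp [isT]

end Pieces

/-! ### The step -/

theorem step (hP : ∀ (Q : Type) [Finite Q], PtsFacts Q) (hC : CountStmt) (hG : ToggleStmt) :
    StepStmt := by
  intro V _ s0 f0 n hn Q _ M hM a hNorm
  classical
  obtain ⟨hid, hl, hr, Act, hAct, hpass⟩ := hNorm
  obtain ⟨c, hc, hlost⟩ := choose_edge (hP Q) hid hl hr hpass hC hn hAct
  set g := M.G with hg
  set L0 := chn g c with hL0
  set L1 := chn g (c + 1) with hL1
  have hi : c / n < n := Nat.div_lt_of_lt_mul hc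
  have hj : c % n < n := Nat.mod_lt _ hn
  have hcn : c / n * n + c % n = c := by
    have := Nat.div_add_mod c n
    rwa [Nat.mul_comm] at this
  let C : List (Sym (Ext V n) ⊕ (Fin 3 × V)) := cellP ⟨c / n, hi⟩ ⟨c % n, hj⟩ Finset.univ.toList
  have hcount : ∀ t, C.countP (isT t) = 1 := fun t =>
    countP_isT_cellP _ _ _ (Finset.nodup_toList _)
      (fun v => Finset.mem_toList.2 (Finset.mem_univ v)) t
  have hact : ∀ (b : Sym V) (A : Set V),
      acts (expand L0 L1 (bits b) C) (Sum.inl '' A) = Sum.inl '' (b.act A) := by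
    intro b A
    apply acts_cellP (P0 := fun i j => i.val * n + j.val < c)
      (P1 := fun i j => i.val * n + j.val < c + 1)
      (fun S => acts_chn g hn c S) (fun S => acts_chn g hn (c + 1) S)
    · simp only [hcn]; omega
    · simp only [hcn]; omega
    · intro v
      exact Finset.mem_toList.2 (Finset.mem_univ v)
  -- the cells
  let w : Sym V → List (Sym (Ext V n)) := fun b => expand L0 L1 (bits b) C
  let w0 := w (idSym V)
  obtain ⟨k, hk, hidem⟩ := exists_pow_idem (wd g w0)
  set e' := wd g w0 ^ k with he'def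
  have he' : e' * e' = e' := hidem
  let m : Sym V → List (Sym (Ext V n)) := fun b => rep w0 k ++ (w b ++ rep w0 (k - 1)) ++ rep w0 k
  let Lp : List (NB Q ⊕ (Fin 3 × V)) :=
    [Sum.inl e'] ++ pcs g C ++ [Sum.inl (wd g w0 ^ (k - 1))] ++ [Sum.inl e']
  have hLp : ∀ b : Sym V, pv (wd g L0) (wd g L1) (bits b) Lp = wd g (m b) := by
    intro b
    show pv (wd g L0) (wd g L1) (bits b) ([Sum.inl e'] ++ pcs g C ++
      [Sum.inl (wd g w0 ^ (k - 1))] ++ [Sum.inl e']) =
      wd g (rep w0 k ++ (w b ++ rep w0 (k - 1)) ++ rep w0 k)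
    rw [pv_append, pv_append, pv_append, pv_inl, pv_inl, pv_pcs, wd_append, wd_append,
      wd_append, wd_rep, wd_rep]
    simp only [mul_assoc]
    rfl
  have hm0 : wd g (m (idSym V)) = e' := by
    show wd g (rep w0 k ++ (w0 ++ rep w0 (k - 1)) ++ rep w0 k) = e'
    rw [wd_append, wd_append, wd_append, wd_rep, wd_rep, ← pow_succ', ← he'def]
    have : k - 1 + 1 = k := by omega
    rw [this, ← he'def, he', he']
  have hleft : ∀ b, e' * wd g (m b) = wd g (m b) := by
    intro b
    show e' * wd g (rep w0 k ++ (w b ++ rep w0 (k - 1)) ++ rep w0 k) = _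
    rw [wd_append, wd_append, wd_rep, ← he'def, ← mul_assoc, ← mul_assoc, he']
  have hright : ∀ b, wd g (m b) * e' = wd g (m b) := by
    intro b
    show wd g (rep w0 k ++ (w b ++ rep w0 (k - 1)) ++ rep w0 k) * e' = _
    rw [wd_append, wd_rep, ← he'def, mul_assoc, he']
  have hcountp : ∀ t, Lp.countP (isT t) ≤ 1 := by
    intro t
    show ([Sum.inl e'] ++ pcs g C ++ [Sum.inl (wd g w0 ^ (k - 1))] ++ [Sum.inl e'] :
      List (NB Q ⊕ (Fin 3 × V))).countP (isT t) ≤ 1
    rw [List.countP_append, List.countP_append, List.countP_append, countP_pcs, hcount]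
    simp [isT]
  obtain ⟨Act0, hAct0, hX⟩ := hG Q (Fin 3 × V) (wd g L0) (wd g L1) Lp (bits (idSym V))
    (chn_idem hid c) (chn_idem hid (c + 1)) (chn_left hid c) (chn_right hid c)
    (by simp [Lp]) (by rw [hLp, hm0]; exact he') (fun t _ => hcountp t)
  have hact0 : ∀ S : Set V, acts w0 (Sum.inl '' S) = Sum.inl '' S := by
    intro S
    show acts (expand L0 L1 (bits (idSym V)) C) (Sum.inl '' S) = Sum.inl '' S
    rw [hact, idSym_act]
  have hrep : ∀ (k : ℕ) (S : Set V),
      acts (rep w0 k) (Sum.inl '' S) = (Sum.inl '' S : Set (Ext V n)) :=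
    fun k S => acts_rep1 _ _ hact0 k S
  have hactm : ∀ (b : Sym V) (S : Set V),
      acts (m b) (Sum.inl '' S) = (Sum.inl '' (b.act S) : Set (Ext V n)) := by
    intro b S
    show acts (rep w0 k ++ (w b ++ rep w0 (k - 1)) ++ rep w0 k) (Sum.inl '' S) = _
    rw [acts_append, acts_append, acts_append, hrep]
    show acts (rep w0 k) (acts (rep w0 (k - 1)) (acts (expand L0 L1 (bits b) C)
      (Sum.inl '' S))) = _
    rw [hact, hrep, hrep]
  refine ⟨⟨fun b => wd g (m b), M.bl, M.br, M.start, M.fin⟩,
    2 * (Lost (wd g L0) (wd g L1)).ncard, ⟨?_, ?_, ?_, ?_⟩, ?_, ?_⟩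
  · show wd g (m (idSym V)) * wd g (m (idSym V)) = wd g (m (idSym V))
    rw [hm0, he']
  · intro s
    show wd g (m (idSym V)) * wd g (m s) = wd g (m s)
    rw [hm0, hleft]
  · intro s
    show wd g (m s) * wd g (m (idSym V)) = wd g (m s)
    rw [hm0, hright]
  · -- activity
    have hx0 : ∀ v : V, bits (idSym V) ((0 : Fin 3), v) = false := fun v => rfl
    have hx1 : ∀ v : V, bits (idSym V) ((1 : Fin 3), v) = false := fun v => rfl
    refine ⟨fun t => if t.1 = true then Act0 (1, t.2) else Act0 (0, t.2), ?_, ?_⟩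
    · rintro ⟨b, v⟩
      cases b with
      | false => simpa using hAct0 (0, v) (hx0 v)
      | true => simpa using hAct0 (1, v) (hx1 v)
    · intro s hkeep d x hx h1 h2
      have hx' : Pt (pv (wd g L0) (wd g L1) (bits (idSym V)) Lp) d x := by
        rw [hLp]
        exact hx
      have := hX (bits s) (by
        rintro ⟨t, v⟩ ht
        fin_cases t
        · exact absurd ht (by simp [bits, idSym])
        · exact absurd ht (by simp [bits, idSym])
        · exact hkeep v) d x hx' (by
        rintro ⟨t, v⟩ ht0 ht1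
        rw [hLp]
        fin_cases t
        · have := h1 v ht1
          simpa using this
        · have := h2 v ht1
          simpa using this
        · exact absurd ht0 (by simp [bits, idSym]))
      rw [hLp, hLp] at this
      exact this
  · calc n * (2 * (Lost (wd g L0) (wd g L1)).ncard)
        = 2 * (n * (Lost (wd g L0) (wd g L1)).ncard) := by ring
      _ ≤ 2 * (4 * a) := Nat.mul_le_mul_left _ hlost
      _ = 8 * a := by ring
  · intro ws
    have h1 : (BAut.mk (fun b => wd g (m b)) M.bl M.br M.start M.fin).Acc ws ↔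
        M.Acc (ws.flatMap m) := by
      unfold BAut.Acc
      show (M.bl * (ws.map (fun b => wd g (m b))).prod * M.br) _ _ ↔
        (M.bl * wd g (ws.flatMap m) * M.br) _ _
      rw [wd_flatMap]
    rw [h1, hM]
    have h2 := acts_macro (Sum.inl : V → Ext V n) [] m (fun _ => rfl) hactm ws {s0}
    simp only [List.nil_append, List.append_nil] at h2
    unfold RLang
    rw [← Set.image_singleton, h2]
    rw [Sum.inl_injective.mem_set_image]

end Vale.Agent.P343.H650
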