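import Vale.Agent.P343.H741.Iface
import Mathlib.Data.Set.Card.Arithmetic

/-!
Row G: toggles.
-/

namespace Vale.Agent.P343.H650

open Vale.Agent.P343 Vale.Agent.P343.Box Vale.Agent.P343.H741 Relation

variable {Q : Type}

/-- A crossing of the box `e` that is lost when `e` is replaced by `f`. -/
def LostX (e f : NB Q) (d : Bool) (a b z : Q) : Prop :=
  Via e d a b z ∧ Pt e d z ∧ ¬ X e f d z z

/-- A run in a chain is either a run in the changed chain or contains a lost crossing. -/
theorem tog (hP : PtsFacts Q) {e f : NB Q} (he : e * e = e) (hef : e * f = f) (hfe : f * e = f)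
    {b b' : ℕ → NB Q} {lo hi : ℕ} (Bad : ℕ → Prop)
    (hb : ∀ i, lo ≤ i → i < hi → b i = b' i ∨ (Bad i ∧ b i = e ∧ b' i = f))
    {x y : ℕ × (Bool × Q)} (h : Rn b lo hi x y) :
    Rn b' lo hi x y ∨ ∃ (i : ℕ) (d : Bool) (a c z : Q), Bad i ∧ LostX e f d a c z ∧
      Rn b lo hi x (ent i (i + 1) d, (d, a)) ∧ Rn b lo hi (ext i (i + 1) d, (d, c)) y := by
  induction h with
  | refl => exact Or.inl ReflTransGen.refl
  | tail h1 h2 ih =>
    rcases ih with ih | ⟨i, d, a, c, z, h3, h4, h5, h6⟩
    · cases h2 with
      | mk i c c' h3 h4 h5 =>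
        rcases hb i h3 h4 with h6 | ⟨h6, h7, h8⟩
        · left
          rw [h6] at h5
          exact ih.tail (St.mk i c c' h3 h4 h5)
        · have keyf : f c c' → Rn b' lo hi x (ext i (i + 1) c'.1, c') := by
            intro hf
            rw [← h8] at hf
            exact ih.tail (St.mk i c c' h3 h4 hf)
          rw [h7] at h5
          by_cases hd : c.1 = c'.1
          · obtain ⟨d, a⟩ := c
            obtain ⟨d', a'⟩ := c'
            simp only at hd
            subst hd
            obtain ⟨z, hz, hvia⟩ := hP.via1 he h5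
            by_cases hX : X e f d z z
            · left
              exact keyf (hP.via2 he hef hfe hvia hX)
            · right
              exact ⟨i, d, a, a', z, h6, ⟨hvia, hz, hX⟩, h1, ReflTransGen.refl⟩
          · left
            exact keyf (hP.bounce hef hfe hd h5)
    · right
      exact ⟨i, d, a, c, z, h3, h4, h5, h6.tail h2⟩

section Pieces

variable {T' : Type}

/-- The boxes of a list of pieces. -/
def bx (e f : NB Q) (x : T' → Bool) (L : List (NB Q ⊕ T')) : List (NB Q) :=
  L.map (fun p => Sum.elim id (fun t => if x t then f else e) p)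

theorem pv_eq (e f : NB Q) (x : T' → Bool) (L : List (NB Q ⊕ T')) :
    pv e f x L = (bx e f x L).prod := rfl

theorem bx_length (e f : NB Q) (x : T' → Bool) (L : List (NB Q ⊕ T')) :
    (bx e f x L).length = L.length := by simp [bx]

/-- The chain of the pieces in the environment `E`. -/
def pch (E e f : NB Q) (x : T' → Bool) (L : List (NB Q ⊕ T')) : ℕ → NB Q :=
  lch (E :: (bx e f x L ++ [E]))

theorem pch_cases (E e f : NB Q) (x0 x : T' → Bool) (L : List (NB Q ⊕ T'))
    (hx : ∀ t, x0 t = true → x t = true) (i : ℕ) :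
    pch E e f x0 L i = pch E e f x L i ∨
      ((∃ (j : ℕ) (t : T'), i = j + 1 ∧ L[j]? = some (Sum.inr t) ∧ x0 t = false ∧ x t = true) ∧
        pch E e f x0 L i = e ∧ pch E e f x L i = f) := by
  cases i with
  | zero => exact Or.inl rfl
  | succ j =>
    have h1 : ∀ x : T' → Bool, pch E e f x L (j + 1) = ((bx e f x L ++ [E])[j]?).getD 1 := by
      intro x
      unfold pch lch
      rw [List.getElem?_cons_succ]
    rw [h1, h1]
    by_cases hj : j < L.length
    · have h2 : ∀ x : T' → Bool, (bx e f x L ++ [E])[j]? =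
          (L[j]?).map (fun p => Sum.elim id (fun t => if x t then f else e) p) := by
        intro x
        rw [List.getElem?_append_left (by rw [bx_length]; exact hj)]
        unfold bx
        rw [List.getElem?_map]
      rw [h2, h2]
      rcases hp : L[j]? with _ | p
      · exact Or.inl rfl
      · rcases p with s | t
        · exact Or.inl rfl
        · cases hx0 : x0 t with
          | true =>
            left
            simp [hx0, hx t hx0]
          | false =>
            cases hx1 : x t with
            | true =>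
              right
              refine ⟨⟨j, t, rfl, hp, hx0, hx1⟩, ?_, ?_⟩
              · simp [hx0]
              · simp [hx1]
            | false =>
              left
              simp [hx0, hx1]
    · left
      have h2 : ∀ x : T' → Bool, (bx e f x L ++ [E])[j]? = ([E] : List (NB Q))[j - L.length]? := by
        intro x
        rw [List.getElem?_append_right (by rw [bx_length]; omega), bx_length]
      rw [h2, h2]

theorem pch_at (E e f : NB Q) (x0 : T' → Bool) (L : List (NB Q ⊕ T')) {j : ℕ} {t : T'}
    (h : L[j]? = some (Sum.inr t)) (hx : x0 t = false) : pch E e f x0 L (j + 1) = e := by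
  have hj : j < L.length := by
    rw [List.getElem?_eq_some_iff] at h
    exact h.1
  unfold pch lch
  rw [List.getElem?_cons_succ, List.getElem?_append_left (by rw [bx_length]; exact hj)]
  unfold bx
  rw [List.getElem?_map, h]
  simp [hx]

/-- A toggle that occurs at most once has one position. -/
theorem pos_unique {A : Type} {t : T'} : ∀ {L : List (A ⊕ T')} {i j : ℕ},
    L.countP (isT t) ≤ 1 → L[i]? = some (Sum.inr t) → L[j]? = some (Sum.inr t) → i = j := by
  intro L
  induction L with
  | nil => intro i j _ h; simp at h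
  | cons p L ih =>
    intro i j hc hi hj
    have hmem : ∀ k : ℕ, L[k]? = some (Sum.inr t) → 0 < L.countP (isT t) := by
      intro k hk
      rw [List.countP_pos_iff]
      exact ⟨_, List.mem_of_getElem? hk, isT_iff.2 rfl⟩
    cases i with
    | zero =>
      cases j with
      | zero => rfl
      | succ j =>
        exfalso
        simp only [List.getElem?_cons_zero, Option.some.injEq] at hi
        subst hi
        rw [List.getElem?_cons_succ] at hj
        have h1 := hmem j hj
        rw [List.countP_cons, if_pos (isT_iff.2 rfl)] at hc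
        omega
    | succ i =>
      rw [List.getElem?_cons_succ] at hi
      cases j with
      | zero =>
        exfalso
        simp only [List.getElem?_cons_zero, Option.some.injEq] at hj
        subst hj
        have h1 := hmem i hi
        rw [List.countP_cons, if_pos (isT_iff.2 rfl)] at hc
        omega
      | succ j =>
        rw [List.getElem?_cons_succ] at hj
        have h2 : L.countP (isT t) ≤ 1 := by
          rw [List.countP_cons] at hc
          omega
        rw [ih h2 hi hj]

/-- The run of `y` to `y'` through the pieces can be cut at the toggle `t`. -/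
def Cut (E e f : NB Q) (x0 : T' → Bool) (L : List (NB Q ⊕ T')) (t : T') (D : Bool) (y : Q)
    (d : Bool) (z : Q) : Prop :=
  ∃ (j : ℕ) (a c : Q), L[j]? = some (Sum.inr t) ∧ LostX e f d a c z ∧
    Rn (pch E e f x0 L) 0 (L.length + 2) (ent 1 (L.length + 1) D, (D, y))
      (ent (j + 1) (j + 2) d, (d, a)) ∧
    Rn (pch E e f x0 L) 0 (L.length + 2) (ext (j + 1) (j + 2) d, (d, c))
      (ext 1 (L.length + 1) D, (D, y))

/-- The active classes of a toggle. -/
def ActG (E e f : NB Q) (x0 : T' → Bool) (L : List (NB Q ⊕ T')) (t : T') :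
    Set (Bool × Set Q) :=
  {κ | ∃ y, Pt E κ.1 y ∧ κ.2 = cl E κ.1 y ∧ ∃ d z, Cut E e f x0 L t κ.1 y d z}

theorem mem_cl_self {e : NB Q} {d : Bool} {x : Q} (h : Pt e d x) : x ∈ cl e d x := ⟨h, h⟩

end Pieces

theorem toggle (hA : ∀ (Q : Type) [Finite Q], AlgFacts Q)
    (hP : ∀ (Q : Type) [Finite Q], PtsFacts Q) : ToggleStmt := by
  intro Q T' _ e f L x0 he hf hef hfe hL hE hcount
  classical
  set E := pv e f x0 L with hEdef
  have hPQ := hP Q
  have hAQ := hA Q
  have hne : ∀ x : T' → Bool, bx e f x L ≠ [] := by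
    intro x h
    apply hL
    have := bx_length e f x L
    rw [h, List.length_nil] at this
    exact List.length_eq_zero_iff.1 this.symm
  have hlist : ∀ (x : T' → Bool) (D : Bool) (y y' : Q), Cr E (pv e f x L) E D y y' ↔
      Rn (pch E e f x L) 0 (L.length + 2) (ent 1 (L.length + 1) D, (D, y))
        (ext 1 (L.length + 1) D, (D, y')) := by
    intro x D y y'
    have := hAQ.list (l := E) (r := E) (M := bx e f x L) (d := D) (x := y) (y := y') (hne x)
    rw [bx_length] at this
    exact this
  -- switching between two runs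
  have hswitch : ∀ (t : T'), x0 t = false → ∀ (D : Bool) (y y' : Q) (d : Bool)
      (z z' : Q), Cut E e f x0 L t D y d z → Cut E e f x0 L t D y' d z' → T e d z z' →
      T E D y y' := by
    intro t ht D y y' d z z' h h' hz
    obtain ⟨j, a, c, h1, ⟨h2, _, _⟩, h3, _⟩ := h
    obtain ⟨j', a', c', h1', ⟨h2', _, _⟩, _, h4'⟩ := h'
    have hjj := pos_unique (hcount t ht) h1 h1'
    subst hjj
    have hstep := hPQ.via3 he h2 h2' hz
    have : Cr E (pv e f x0 L) E D y y' := by
      rw [hlist]
      have hlt : j < L.length := by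
        rw [List.getElem?_eq_some_iff] at h1
        exact h1.1
      refine Rn.trans h3 (Rn.trans (ReflTransGen.single
        (St.mk (j + 1) (d, a) (d, c') (by omega) (by omega) ?_)) h4')
      rw [pch_at E e f x0 L h1 ht]
      exact hstep
    exact this
  refine ⟨ActG E e f x0 L, ?_, ?_⟩
  · intro t ht
    have hch : ∀ κ ∈ ActG E e f x0 L t, ∃ lam : Bool × (Bool × Set Q),
        lam ∈ (Set.univ : Set Bool) ×ˢ Lost e f ∧ lam.1 = κ.1 ∧
        ∃ y z, Pt E κ.1 y ∧ κ.2 = cl E κ.1 y ∧ Pt e lam.2.1 z ∧ lam.2.2 = cl e lam.2.1 z ∧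
          Cut E e f x0 L t κ.1 y lam.2.1 z := by
      rintro κ ⟨y, hy, hκ, d, z, hcut⟩
      obtain ⟨j, a, c, h1, ⟨h2, h5, h6⟩, h3, h4⟩ := hcut
      exact ⟨(κ.1, (d, cl e d z)), ⟨trivial, ⟨z, h5, rfl, h6⟩⟩, rfl, y, z, hy, hκ, h5, rfl,
        ⟨j, a, c, h1, ⟨h2, h5, h6⟩, h3, h4⟩⟩
    choose! F hF1 hF2 hF3 using hch
    have hcard : ((Set.univ : Set Bool) ×ˢ Lost e f).ncard = 2 * (Lost e f).ncard := by
      rw [Set.ncard_prod, Set.ncard_univ, Nat.card_eq_fintype_card, Fintype.card_bool]
    rw [← hcard]
    refine Set.ncard_le_ncard_of_injOn F (fun κ hκ => hF1 κ hκ) ?_ (Set.toFinite _)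
    intro κ hκ κ' hκ' hFF
    obtain ⟨y, z, h1, h2, h3, h4, h5⟩ := hF3 κ hκ
    obtain ⟨y', z', h1', h2', h3', h4', h5'⟩ := hF3 κ' hκ'
    have e1 : κ.1 = κ'.1 := by rw [← hF2 κ hκ, ← hF2 κ' hκ', hFF]
    rw [← hFF] at h3' h4' h5'
    rw [← e1] at h1' h2' h5'
    have hz : z' ∈ cl e (F κ).2.1 z := by
      rw [← h4, h4']
      exact mem_cl_self h3'
    have k1 : T E κ.1 y y' := hswitch t ht _ _ _ _ _ _ h5 h5' hz.1
    have k2 : T E κ.1 y' y := hswitch t ht _ _ _ _ _ _ h5' h5 hz.2
    refine Prod.ext e1 ?_
    rw [h2, h2']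
    ext w
    constructor
    · rintro ⟨w1, w2⟩
      exact ⟨hPQ.trans hE k2 w1, hPQ.trans hE w2 k1⟩
    · rintro ⟨w1, w2⟩
      exact ⟨hPQ.trans hE k1 w1, hPQ.trans hE w2 k2⟩
  · intro x hx d y hy hact
    show Cr E (pv e f x L) E d y y
    rw [hlist]
    have h0 : Cr E (pv e f x0 L) E d y y := hy
    rw [hlist] at h0
    rcases tog hPQ he hef hfe
      (fun i => ∃ (j : ℕ) (t : T'), i = j + 1 ∧ L[j]? = some (Sum.inr t) ∧ x0 t = false ∧
        x t = true) (fun i _ _ => pch_cases E e f x0 x L hx i) h0 with h | h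
    · exact h
    · exfalso
      obtain ⟨i, d', a, c, z, ⟨j, t, rfl, hj, ht0, ht1⟩, h2, h3, h4⟩ := h
      exact hact t ht0 ht1 ⟨y, hy, rfl, d', z, j, a, c, hj, h2, h3, h4⟩

end Vale.Agent.P343.H650
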